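import Vale.Agent.P305E.WpLoop
import Vale.Agent.P305E.MinArr

/-!
# Cut-matching game, part 3: ranks inside clusters and the split at the medians
-/

namespace Vale.Agent.P305K

open Finset Vale.Agent.P305E

/-- The tokens of cluster `c`. -/
def clu (N : ℕ) (cl : ℕ → ℕ) (c : ℕ) : Finset ℕ := {j ∈ range N | cl j = c}

theorem mem_clu {N : ℕ} {cl : ℕ → ℕ} {c j : ℕ} : j ∈ clu N cl c ↔ j < N ∧ cl j = c := by
  simp [clu]

theorem clu_sub (N : ℕ) (cl : ℕ → ℕ) (c : ℕ) : clu N cl c ⊆ range N := filter_subset _ _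

theorem card_clu_le (N : ℕ) (cl : ℕ → ℕ) (c : ℕ) : #(clu N cl c) ≤ N :=
  (card_le_card (clu_sub N cl c)).trans (card_range N).le

/-- The number of tokens of `K` that come before `i` in the order of the values `U`. -/
def rank (K : Finset ℕ) (U : ℕ → ℕ) (i : ℕ) : ℕ := #{j ∈ K | U j < U i ∨ (U j = U i ∧ j < i)}

/-- One step of the sorting loop; the state is queue, counters, ranks. -/
noncomputable def rankStep (cl : Arr ℕ) (s : MinArr × Arr ℕ × Arr ℕ) :
    M (MinArr × Arr ℕ × Arr ℕ) :=
  s.1.min.elim (pure s) fun p => num (s.2.1.get (cl.get p.2) + 1) >>= fun c =>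
    pure (s.1.set p.2 none, s.2.1.set (cl.get p.2) c, s.2.2.set p.2 (s.2.1.get (cl.get p.2)))

/-- The sizes of the clusters and the ranks of the tokens in their clusters. -/
noncomputable def rankP (N : ℕ) (cl U : Arr ℕ) : M (Arr ℕ × Arr ℕ) :=
  iterM (fun (q : MinArr) i => pure (q.set i (some (U.get i, i)))) MinArr.empty N >>= fun q =>
  iterM (fun s _ => rankStep cl s) (q, Arr.const 0, Arr.const 0) N >>= fun s => pure s.2

@[fun_prop] theorem impl_rankP {α : Type} [Rep α] {N : α → ℕ} {cl U : α → Arr ℕ} (h1 : Pure N)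
    (h2 : Pure cl) (h3 : Pure U) : Impl fun a => rankP (N a) (cl a) (U a) := by
  unfold rankP rankStep
  fun_prop

theorem rankP_tri {c : Cx} {N : ℕ} (cl U : Arr ℕ) (hB : N ≤ c.B) :
    Tri c (rankP N cl U) fun r t => (∀ a, r.1.get a = #(clu N cl.get a)) ∧
      (∀ i < N, r.2.get i = rank (clu N cl.get (cl.get i)) U.get i) ∧ t = 2 * N := by
  unfold rankP
  refine (Tri.iterM (fun k (q : MinArr) t => (∀ i, q.get i =
    if i < k then some (U.get i, i) else none) ∧ t = k) (by simp) ?_).bind ?_
  · rintro k q _ - ⟨h, rfl⟩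
    refine ⟨fun i => ?_, rfl⟩
    rw [MinArr.get_set, h]
    split_ifs <;> first | rfl | omega | simp_all
  rintro q t₀ ⟨hq, ht₀⟩
  refine (Tri.iterM (fun k (s : MinArr × Arr ℕ × Arr ℕ) t => t = k ∧ ∃ P ⊆ range N, #P = k ∧
    (∀ i, s.1.get i = if i < N ∧ i ∉ P then some (U.get i, i) else none) ∧
    (∀ i ∈ P, ∀ j < N, j ∉ P → Key.le (U.get i, i) (U.get j, j)) ∧
    (∀ a, s.2.1.get a = #{j ∈ P | cl.get j = a}) ∧
    ∀ i ∈ P, s.2.2.get i = rank (clu N cl.get (cl.get i)) U.get i)
    ⟨rfl, ∅, by simp [hq]⟩ ?_).bind ?_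
  · rintro k s _ hk ⟨rfl, P, hP, rfl, h1, h2, h3, h4⟩
    obtain ⟨j, hj, hjP⟩ := exists_mem_notMem_of_card_lt_card (s := P) (t := range N) (by simpa)
    unfold rankStep
    rcases hm : s.1.min with _ | p
    · have := MinArr.min_eq_none hm j
      rw [h1, if_pos ⟨mem_range.1 hj, hjP⟩] at this
      cases this
    obtain ⟨⟨i, hi⟩, hmin⟩ := MinArr.min_eq_some hm
    rw [h1] at hi
    split_ifs at hi with h
    obtain rfl := Option.some.inj hi
    have hle : ∀ j < N, j ∉ P → Key.le (U.get i, i) (U.get j, j) := fun j a b =>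
      hmin j _ (by rw [h1, if_pos ⟨a, b⟩])
    simp only [Option.elim, Tri_bind, Tri_num, Tri_pure]
    refine ⟨?_, trivial, insert i P, insert_subset (mem_range.2 h.1) hP, card_insert_of_notMem h.2,
      fun j => ?_, fun a ha j hj hj' => ?_, fun a => ?_, fun a ha => ?_⟩
    · have := card_filter_le P fun j => cl.get j = cl.get i
      rw [h3]
      omega
    · rw [MinArr.get_set, h1]
      by_cases e : j = i <;> simp [e]
    · have hj2 : j ∉ P := fun e => hj' (mem_insert_of_mem e)
      rcases mem_insert.1 ha with rfl | ha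
      exacts [hle j hj hj2, h2 a ha j hj hj2]
    · rw [Arr.get_set, filter_insert]
      by_cases e : a = cl.get i
      · rw [if_pos e, if_pos e.symm, card_insert_of_notMem fun k => h.2 (mem_filter.1 k).1, h3, e]
      · rw [if_neg e, if_neg (Ne.symm e), h3]
    · rw [Arr.get_set]
      split_ifs with e
      · rw [h3, e, rank]
        congr 1
        ext j
        simp only [mem_filter, mem_clu]
        constructor
        · rintro ⟨a1, a2⟩
          have := h2 j a1 i h.1 h.2
          have ne : j ≠ i := fun e => h.2 (e ▸ a1)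
          exact ⟨⟨mem_range.1 (hP a1), a2⟩, by unfold Key.le at this; simp only at this; omega⟩
        · rintro ⟨⟨a1, a2⟩, a3⟩
          refine ⟨by_contra fun k => ?_, a2⟩
          have := hle j a1 k
          unfold Key.le at this
          simp only at this
          omega
      · exact h4 a ((mem_insert.1 ha).resolve_left e)
  · rintro s t ⟨ht, P, hP, hc, -, -, h3, h4⟩
    obtain rfl := eq_of_subset_of_card_le hP (by simp [hc])
    exact ⟨h3, fun i hi => h4 i (mem_range.2 hi), by omega⟩

variable {K : Finset ℕ} {U : ℕ → ℕ}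

theorem rank_lt_rank {i j : ℕ} (hi : i ∈ K) (h : U i < U j ∨ (U i = U j ∧ i < j)) :
    rank K U i < rank K U j := by
  refine card_lt_card ⟨fun a ha => ?_, fun hs => ?_⟩
  · simp only [mem_filter] at ha ⊢
    exact ⟨ha.1, by omega⟩
  · have := hs (mem_filter.2 ⟨hi, h⟩)
    simp at this

theorem rank_lt {i : ℕ} (hi : i ∈ K) : rank K U i < #K :=
  card_lt_card ⟨filter_subset _ _, fun hs => by simpa using hs hi⟩

theorem le_of_rank {i j : ℕ} (hj : j ∈ K) (h : rank K U i ≤ rank K U j) : U i ≤ U j := by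
  by_contra k
  have := rank_lt_rank (U := U) (j := i) hj (by omega)
  omega

theorem rank_inj : Set.InjOn (rank K U) K := fun i hi j hj e => by
  by_contra k
  have h1 := fun h => rank_lt_rank (U := U) (j := j) hi h
  have h2 := fun h => rank_lt_rank (U := U) (j := i) hj h
  omega

theorem image_rank : K.image (rank K U) = range #K :=
  eq_of_subset_of_card_le (fun a ha => by
    obtain ⟨i, hi, rfl⟩ := mem_image.1 ha
    exact mem_range.2 (rank_lt hi)) (by rw [card_image_of_injOn rank_inj, card_range])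

theorem card_rank (p : ℕ → Prop) [DecidablePred p] :
    #{i ∈ K | p (rank K U i)} = #{r ∈ range #K | p r} := by
  rw [← image_rank (U := U), filter_image, card_image_of_injOn
    (rank_inj.mono (coe_subset.2 (filter_subset _ _)))]

/-- The side of a token: `0` below the median, `1` above, `2` for the median of an odd number of
tokens. -/
def sideOf (sz rk : ℕ) : ℕ := if 2 * rk + 1 < sz then 0 else if 2 * rk + 1 = sz then 2 else 1

/-- The shape of a split of `K`: two halves and at most one token that sits out. -/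
structure Halves (K : Finset ℕ) (side : ℕ → ℕ) : Prop where
  le : ∀ i ∈ K, side i ≤ 2
  left : #{i ∈ K | side i = 0} = #K / 2
  right : #{i ∈ K | side i = 1} = #K / 2
  mid : #{i ∈ K | side i = 2} = #K % 2

/-- The sides are separated by a threshold. -/
def Thr (K : Finset ℕ) (U side : ℕ → ℕ) : Prop :=
  ∃ η, ∀ i ∈ K, (side i = 0 → U i ≤ η) ∧ (side i = 1 → η ≤ U i) ∧ (side i = 2 → U i = η)

theorem halves_rank {side : ℕ → ℕ} (h : ∀ i ∈ K, side i = sideOf #K (rank K U i)) :
    Halves K side ∧ Thr K U side := by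
  have e : ∀ a, #{i ∈ K | side i = a} = #{r ∈ range #K | sideOf #K r = a} := fun a => by
    rw [← card_rank (U := U), filter_congr fun i hi => by rw [h i hi]]
  refine ⟨⟨fun i hi => ?_, ?_, ?_, ?_⟩, ?_⟩
  · rw [h i hi, sideOf]
    split_ifs <;> omega
  · rw [e, show {r ∈ range #K | sideOf #K r = 0} = range (#K / 2) by
      ext r
      rw [mem_filter, mem_range, mem_range, sideOf]
      split_ifs <;> (try simp) <;> omega, card_range]
  · rw [e, show {r ∈ range #K | sideOf #K r = 1} = Ico (#K - #K / 2) #K by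
      ext r
      rw [mem_filter, mem_range, mem_Ico, sideOf]
      split_ifs <;> (try simp) <;> omega, Nat.card_Ico]
    omega
  · rw [e, show {r ∈ range #K | sideOf #K r = 2} = Ico (#K / 2) (#K - #K / 2) by
      ext r
      rw [mem_filter, mem_range, mem_Ico, sideOf]
      split_ifs <;> (try simp) <;> omega, Nat.card_Ico]
    omega
  · rcases K.eq_empty_or_nonempty with rfl | hK
    · exact ⟨0, by simp⟩
    have := card_pos.2 hK
    obtain ⟨j, hj, ej⟩ := mem_image.1 (show #K / 2 ∈ K.image (rank K U) by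
      rw [image_rank, mem_range]; omega)
    refine ⟨U j, fun i hi => ?_⟩
    rw [h i hi, sideOf]
    refine ⟨fun k => le_of_rank hj ?_, fun k => le_of_rank hi ?_, fun k => ?_⟩
    · split_ifs at k <;> omega
    · split_ifs at k <;> omega
    · rw [rank_inj (U := U) hi hj (by split_ifs at k <;> omega)]

/-- The split of all clusters at their medians. -/
noncomputable def splitP (N : ℕ) (cl U : Arr ℕ) : M (Arr ℕ) :=
  rankP N cl U >>= fun r =>
  iterM (fun (s : Arr ℕ) i => pure (s.set i (sideOf (r.1.get (cl.get i)) (r.2.get i))))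
    (Arr.const 2) N

@[fun_prop] theorem impl_splitP {α : Type} [Rep α] {N : α → ℕ} {cl U : α → Arr ℕ} (h1 : Pure N)
    (h2 : Pure cl) (h3 : Pure U) : Impl fun a => splitP (N a) (cl a) (U a) := by
  unfold splitP sideOf
  fun_prop

theorem splitP_tri {c : Cx} {N : ℕ} (cl U : Arr ℕ) (hB : N ≤ c.B) :
    Tri c (splitP N cl U) fun s t =>
      (∀ a, Halves (clu N cl.get a) s.get ∧ Thr (clu N cl.get a) U.get s.get) ∧ t = 3 * N := by
  refine (rankP_tri cl U hB).bind ?_
  rintro r _ ⟨h1, h2, rfl⟩
  refine (Tri.iterM (fun k (s : Arr ℕ) t => (∀ i < k, s.get i =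
    sideOf (r.1.get (cl.get i)) (r.2.get i)) ∧ t = k) (by simp) ?_).mono ?_
  · rintro k s _ - ⟨h, rfl⟩
    refine ⟨fun i hi => ?_, rfl⟩
    rw [Arr.get_set]
    split_ifs with e
    · rw [e]
    · exact h i (by omega)
  · rintro s _ ⟨h, rfl⟩
    refine ⟨fun a => halves_rank fun i hi => ?_, by omega⟩
    obtain ⟨a1, rfl⟩ := mem_clu.1 hi
    rw [h i a1, h1, h2 i a1]

end Vale.Agent.P305K
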