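import Vale.Agent.P305C.Vt

/-!
# Virtual time with a potential

`Vp d B m Q Φ φ`: as `Vt d B m Q`, and moreover the expectation of `Φ` at the result is at most
`φ`, whatever the Las Vegas routines inside `m` answer.
-/

namespace Vale.Agent.P305K

open Vale.Agent.P305E Vale.Agent.P305C

variable {α β σ : Type} {d B : ℕ}

/-- The triple with virtual time and a potential. -/
def Vp (d B : ℕ) (m : M β) (Q : β → ℕ → Prop) (Φ : β → ℝ) (φ : ℝ) : Prop :=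
  ∀ (τ C c : ℝ) (F : β → ℕ → ℝ), 0 ≤ τ → 0 ≤ c → (∀ b t, 0 ≤ F b t) → (∀ b t, F b t ≤ 1) →
    (∀ b s t, Q b s → F b t + (τ + 1 / 2 ^ d) * s ≤ C + τ * t + c * Φ b) →
    wp B m F 1 ≤ C + c * φ

theorem Vp.vt {m : M β} {Q : β → ℕ → Prop} {Φ : β → ℝ} {φ : ℝ} (h : Vp d B m Q Φ φ) :
    Vt d B m Q := fun τ C F h1 h2 h3 h4 => by
  simpa using h τ C 0 F h1 le_rfl h2 h3 (by simpa using h4)

/-- The potential is bounded on all results. -/
theorem Vp.of_vt {m : M β} {Q : β → ℕ → Prop} {Φ : β → ℝ} {φ : ℝ}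
    (h : Vt d B m fun b t => Q b t ∧ Φ b ≤ φ) : Vp d B m Q Φ φ :=
  fun τ C c F h1 hc h2 h3 h4 => h τ _ F h1 h2 h3 fun b s t hb => by
    have := h4 b s t hb.1
    have := mul_le_mul_of_nonneg_left hb.2 hc
    linarith

theorem Vp.mono {m : M β} {Q Q' : β → ℕ → Prop} {Φ Φ' : β → ℝ} {φ φ' : ℝ} (h : Vp d B m Q Φ φ)
    (hQ : ∀ b t, Q b t → Q' b t ∧ Φ' b ≤ Φ b) (hφ : φ ≤ φ') : Vp d B m Q' Φ' φ' :=
  fun τ C c F h1 hc h2 h3 h4 => (h τ C c F h1 hc h2 h3 fun b s t hb => by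
    have := h4 b s t (hQ b s hb).1
    have := mul_le_mul_of_nonneg_left (hQ b s hb).2 hc
    linarith).trans (by have := mul_le_mul_of_nonneg_left hφ hc; linarith)

theorem Vp.affine {m : M β} {Q : β → ℕ → Prop} {Φ : β → ℝ} {φ : ℝ} (h : Vp d B m Q Φ φ) {a : ℝ}
    (ha : 0 ≤ a) (e : ℝ) : Vp d B m Q (fun b => a * Φ b + e) (a * φ + e) :=
  fun τ C c F h1 hc h2 h3 h4 => (h τ (C + c * e) (c * a) F h1 (mul_nonneg hc ha) h2 h3
    fun b s t hb => by have := h4 b s t hb; linarith).trans (by linarith)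

/-- A part with a triple for all paths and a bound for the expectation. -/
theorem Vp.of_tri {m : M β} {Q : β → ℕ → Prop} {Φ : β → ℝ} {φ : ℝ} (h : Tri ⟨B, true⟩ m Q)
    (hw : wp B m (fun b _ => Φ b) 0 ≤ φ) : Vp d B m Q Φ φ := fun τ C c F _ hc _ _ h4 => by
  refine (wp_le_of_Tri (c := ⟨B, true⟩) h (G := fun b _ => C + c * Φ b) (fun b t hb => ?_) 1
    (C + c * 0)).trans ?_
  · have := h4 b t t hb
    have a : (0 : ℝ) ≤ 1 / 2 ^ d * t := by positivity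
    nlinarith
  · rw [wp_const_add, wp_mul_left]
    exact add_le_add le_rfl (mul_le_mul_of_nonneg_left hw hc)

theorem Vp.bind {m : M α} {f : α → M β} {P : α → ℕ → Prop} {Q : β → ℕ → Prop} {Ψ : α → ℝ}
    {Φ : β → ℝ} {φ : ℝ} (h : Vp d B m P Ψ φ)
    (hf : ∀ a t, P a t → Vp d B (f a) (fun b t' => Q b (t + t')) Φ (Ψ a)) :
    Vp d B (m >>= f) Q Φ φ := by
  intro τ C c F h1 hc h2 h3 h4
  rw [wp_bind]
  refine h τ C c _ h1 hc (fun a t => wp_nonneg (fun _ _ => h2 _ _) zero_le_one)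
    (fun a t => wp_le_const (fun _ _ => h3 _ _) le_rfl) fun a s t ha => ?_
  have := hf a s ha τ (C + τ * t - (τ + 1 / 2 ^ d) * s) c (fun b t' => F b (t + t')) h1 hc
    (fun _ _ => h2 _ _) (fun _ _ => h3 _ _) fun b s' t' hb => by
      have := h4 b (s + s') (t + t') hb
      push_cast at this
      linarith
  linarith

theorem Vp.iterM {f : σ → ℕ → M σ} {n : ℕ} {s : σ} (I : ℕ → σ → ℕ → Prop) (Φ : ℕ → σ → ℝ)
    (h0 : I 0 s 0) (hstep : ∀ k s t, k < n → I k s t →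
      Vp d B (f s k) (fun s' t' => I (k + 1) s' (t + t' + 1)) (Φ (k + 1)) (Φ k s)) :
    Vp d B (iterM f s n) (I n) (Φ n) (Φ 0 s) := by
  induction n with
  | zero => exact Vp.of_vt (Vt.pure ⟨h0, le_rfl⟩)
  | succ n ih =>
    rw [iterM_succ]
    refine (ih fun k s t hk => hstep k s t (by omega)).bind fun s' t h => ?_
    exact (hstep n s' t (by omega) h).bind fun s'' t' h' =>
      Vp.of_vt (Vt.tick (Vt.pure ⟨h', le_rfl⟩))

/-- Some result has a potential of at most about the expectation. -/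
theorem Vp.exists {m : M β} {Q : β → ℕ → Prop} {Φ : β → ℝ} {φ θ : ℝ} {S : ℕ}
    (h : Vp d B m (fun b t => Q b t ∧ t ≤ S) Φ φ) (hθ : φ < θ) : ∃ b t, Q b t ∧ t ≤ S ∧ Φ b < θ := by
  by_contra! k
  have p : 0 < θ - φ := by linarith
  have q : (0 : ℝ) ≤ 1 / 2 ^ d * S := by positivity
  obtain ⟨c, c0, hc⟩ : ∃ c, 0 ≤ c ∧ c * (θ - φ) = 1 / 2 ^ d * S + 1 :=
    ⟨(1 / 2 ^ d * S + 1) / (θ - φ), by positivity, by field_simp⟩
  have h1 := h 0 (1 / 2 ^ d * S - c * θ) c (fun _ _ => 0) le_rfl c0 (fun _ _ => le_rfl)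
    (fun _ _ => zero_le_one) fun b s t hb => by
      have a := mul_le_mul_of_nonneg_left (k b s hb.1 hb.2) c0
      have a' : (1 : ℝ) / 2 ^ d * s ≤ 1 / 2 ^ d * S :=
        mul_le_mul_of_nonneg_left (Nat.cast_le.2 hb.2) (by positivity)
      linarith
  have h2 := wp_nonneg (B := B) (m := m) (F := fun _ _ => 0) (fun _ _ => le_rfl) zero_le_one
  linarith

/-- Markov's inequality: bad results have a large potential, so they are rare; one unit of
virtual time pays for them. -/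
theorem Vp.markov {m : M β} {Q : β → ℕ → Prop} {Φ : β → ℝ} {φ θ : ℝ} {S : ℕ} {G : β → Prop}
    (h : Vp d B m (fun b t => Q b t ∧ t ≤ S) Φ φ) (hθ : 0 < θ) (hφ : φ * 2 ^ (d + 1) ≤ θ)
    (h0 : ∀ b t, Q b t → 0 ≤ Φ b) (hG : ∀ b t, Q b t → Φ b < θ → G b) :
    Vt d B m fun b s => (∃ t ≤ S, Q b t) ∧ G b ∧ s = S + 1 := by
  have p : (1 : ℝ) ≤ 2 ^ d := one_le_pow₀ (by norm_num)
  have hφ' : φ * 2 ^ d ≤ θ / 2 := by rw [pow_succ] at hφ; linarith
  have hlt : φ < θ := by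
    by_contra k
    nlinarith
  obtain ⟨b₀, t₀, k1, k2, k3⟩ := h.exists hlt
  intro τ C F h1 h2 h3 h4
  have a0 := h4 b₀ (S + 1) 0 ⟨⟨t₀, k2, k1⟩, hG _ _ k1 k3, rfl⟩
  have a1 := h2 b₀ 0
  refine (h τ (C - 1 / 2 ^ d) (1 / θ) F h1 (by positivity) h2 h3 fun b s t hb => ?_).trans ?_
  · have a2 : (τ + 1 / 2 ^ d) * s ≤ (τ + 1 / 2 ^ d) * S :=
      mul_le_mul_of_nonneg_left (Nat.cast_le.2 hb.2) (by positivity)
    have a3 : 0 ≤ τ * t := by positivity
    have a4 := mul_nonneg (show 0 ≤ 1 / θ by positivity) (h0 b s hb.1)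
    push_cast at a0
    by_cases hb' : Φ b < θ
    · have := h4 b (S + 1) t ⟨⟨s, hb.2, hb.1⟩, hG _ _ hb.1 hb', rfl⟩
      push_cast at this
      linarith
    · have a5 : 1 ≤ 1 / θ * Φ b := by
        rw [one_div, ← div_eq_inv_mul, one_le_div hθ]
        linarith
      have := h3 b t
      linarith
  · have : 1 / θ * φ ≤ 1 / 2 ^ d := by
      rw [one_div θ, ← div_eq_inv_mul, div_le_div_iff₀ hθ (by positivity)]
      linarith
    linarith

end Vale.Agent.P305K
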