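import Vale.Agent.P305K.Sign
import Vale.Agent.P305K.Rank
import Vale.Agent.P305K.Vp

/-!
# Cut-matching game, part 4: the cut player and the game against an arbitrary matching player
-/

namespace Vale.Agent.P305K

open Finset Vale.Agent.P305E Vale.Agent.P305C

/-- The matchings as functions. -/
def hist (ms : List (Arr ℕ)) : List (ℕ → ℕ) := ms.map Arr.get

/-- The walk with rounding. -/
def wz (N : ℕ) : List (ℕ → ℕ) → (ℕ → ℕ) → ℕ → ℕ
  | [], x => x
  | m :: ms, x => fun i => if i < N then (wz N ms x i + wz N ms x (m i)) / 2 else 0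

theorem wz_le {N X : ℕ} {x : ℕ → ℕ} (h : ∀ i, x i ≤ X) (ms : List (ℕ → ℕ)) (i : ℕ) :
    wz N ms x i ≤ X := by
  induction ms generalizing i with
  | nil => exact h i
  | cons m ms ih =>
    have := ih i
    have := ih (m i)
    simp only [wz]
    split_ifs <;> omega

theorem wz_near {N : ℕ} {K : Finset ℕ} (hK : K ⊆ range N) {ms : List (ℕ → ℕ)}
    (h : ∀ m ∈ ms, Inv K m) {x : ℕ → ℕ} {y : ℕ → ℝ} (e : ∀ i ∈ K, (x i : ℝ) = y i) :
    ∀ i ∈ K, (wz N ms x i : ℝ) ≤ walk ms y i ∧ walk ms y i ≤ wz N ms x i + ms.length := by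
  induction ms with
  | nil => intro i hi; simp [wz, walk, e i hi]
  | cons m ms ih =>
    intro i hi
    have ih := ih fun m hm => h m (by simp [hm])
    have h1 := ih i hi
    have h2 := ih _ (h m (by simp) i hi).1
    simp only [wz, walk, if_pos (mem_range.1 (hK hi)), List.length_cons]
    generalize wz N ms x i = a at *
    generalize wz N ms x (m i) = a' at *
    have k1 : ((2 * ((a + a') / 2) : ℕ) : ℝ) ≤ (a + a' : ℕ) := Nat.cast_le.2 (by omega)
    have k2 : ((a + a' : ℕ) : ℝ) ≤ (2 * ((a + a') / 2) + 1 : ℕ) := Nat.cast_le.2 (by omega)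
    push_cast at k1 k2 ⊢
    constructor <;> linarith

/-- The rounded projections. -/
def projP (N X : ℕ) (ms : List (Arr ℕ)) (r : Arr Bool) : M (Arr ℕ) :=
  revP ms >>= fun l =>
  iterM (fun (a : Arr ℕ) i => pure (a.set i (if r.get i = true then X else 0))) (Arr.const 0) N >>=
    fun x => foldM (fun (U : Arr ℕ) (m : Arr ℕ) => iterM (fun (a : Arr ℕ) i =>
      num ((U.get i + U.get (m.get i)) / 2) >>= fun v => pure (a.set i v)) (Arr.const 0) N) x l

/-- The cut player. -/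
noncomputable def cutP (N X : ℕ) (cl : Arr ℕ) (ms : List (Arr ℕ)) : M (Arr ℕ) :=
  signs N >>= fun r => projP N X ms r >>= fun U => splitP N cl U

@[fun_prop] theorem impl_cutP {α : Type} [Rep α] {N X : α → ℕ} {cl : α → Arr ℕ}
    {ms : α → List (Arr ℕ)} (h1 : Pure N) (h2 : Pure X) (h3 : Pure cl) (h4 : Pure ms) :
    Impl fun a => cutP (N a) (X a) (cl a) (ms a) := by
  unfold cutP projP
  fun_prop

theorem projP_tri {c : Cx} {N X : ℕ} (hX : X ≤ c.B) (ms : List (Arr ℕ)) (r : Arr Bool) :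
    Tri c (projP N X ms r) fun U t => t = ms.length * (N + 2) + N ∧
      U.get = wz N (hist ms) fun i => if i < N ∧ r.get i = true then X else 0 := by
  unfold projP
  simp only [Tri_bind, Tri_revP]
  refine (Tri.iterM (fun k (a : Arr ℕ) t => t = k ∧
    a.get = fun i => if i < k ∧ r.get i = true then X else 0) ⟨rfl, by ext; simp⟩ ?_).mono ?_
  · rintro _ a k - ⟨rfl, h⟩
    refine ⟨rfl, funext fun i => ?_⟩
    rw [Arr.get_set, h]
    by_cases e : i = k
    · simp [e]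
    · simp only [if_neg e, show i < k + 1 ↔ i < k by omega]
  rintro x t₀ ⟨h₀, hx⟩
  rw [← hx]
  have xl : ∀ i, x.get i ≤ X := fun i => by rw [hx]; dsimp only; split_ifs <;> omega
  refine (Tri.foldM (fun pre (U : Arr ℕ) t => t = pre.length * (N + 1) ∧
    U.get = wz N (hist pre.reverse) x.get) ⟨by simp, rfl⟩ ?_).mono ?_
  · rintro pre m rest U t - ⟨ht, hU⟩
    refine (Tri.iterM (fun k (a : Arr ℕ) t => t = k ∧
      a.get = fun i => if i < k then (U.get i + U.get (m.get i)) / 2 else 0)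
      ⟨rfl, by ext; simp⟩ ?_).mono ?_
    · rintro _ a k - ⟨rfl, h⟩
      have := wz_le (N := N) xl (hist pre.reverse)
      rw [← hU] at this
      have a1 := this k
      have a2 := this (m.get k)
      simp only [Tri_bind, Tri_num, Tri_pure]
      refine ⟨by omega, trivial, funext fun i => ?_⟩
      rw [Arr.get_set, h]
      by_cases e : i = k
      · simp [e]
      · simp only [if_neg e, show i < k + 1 ↔ i < k by omega]
    · rintro a t' ⟨h1, h2⟩
      refine ⟨by rw [List.length_append, add_mul, ht, h1]; simp [add_assoc], ?_⟩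
      rw [h2, hU]
      simp [hist, wz]
  · rintro U t ⟨h1, h2⟩
    rw [List.length_reverse] at h1
    exact ⟨by rw [h1, h₀]; ring, by simpa using h2⟩

/-- A legal answer of the matching player: an involution that changes the sides. -/
def Ans (K : Finset ℕ) (side m : ℕ → ℕ) : Prop :=
  Inv K m ∧ ∀ i ∈ K, side i ≠ 2 → side (m i) ≠ side i

theorem str_of {N S : ℕ} (hS : 0 < S) {K : Finset ℕ} (hK : K ⊆ range N) {ms : List (ℕ → ℕ)}
    (h : ∀ m ∈ ms, Inv K m) (r : Arr Bool) {side m : ℕ → ℕ} (hh : Halves K side)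
    (ht : Thr K (wz N ms fun i => if i < N ∧ r.get i = true then 2 * S else 0) side)
    (ha : Ans K side m) {δ : ℝ} (hδ : 2 * ms.length ≤ δ * S) : Str K ms δ r m := by
  obtain ⟨η, hη⟩ := ht
  have S0 : (0 : ℝ) < S := by exact_mod_cast hS
  have nr := wz_near hK h (x := fun i => if i < N ∧ r.get i = true then 2 * S else 0)
    (y := fun j => S * sg (r.get j) + S) fun i hi => by
      have := mem_range.1 (hK hi)
      cases k : r.get i <;> simp [sg, this, two_mul]
  simp only [walk_affine] at nr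
  refine ⟨η / S - 1, fun i hi => le_of_mul_le_mul_left ?_ S0⟩
  have hi' := (ha.1 i hi).1
  have h1 := nr i hi
  have h2 := nr _ hi'
  have h3 := hη i hi
  have h4 := hη _ hi'
  have h5 := ha.2 i hi
  have h6 := hh.le i hi
  have h7 := hh.le _ hi'
  generalize wz N ms _ i = a at *
  generalize wz N ms _ (m i) = a' at *
  have h8 : ((a : ℝ) ≤ η ∧ (η : ℝ) ≤ a') ∨ ((η : ℝ) ≤ a ∧ (a' : ℝ) ≤ η) ∨ (a : ℝ) = η := by
    norm_cast
    omega
  generalize walk ms _ i = u at *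
  generalize walk ms _ (m i) = u' at *
  have e1 : S * |u - (η / S - 1)| = |S * u + S - η| := by
    rw [← abs_of_pos S0, ← abs_mul, abs_of_pos S0]
    congr 1
    field_simp
    ring
  have e2 : S * (|u - u'| + δ) = |S * u - S * u'| + δ * S := by
    rw [← mul_sub, abs_mul, abs_of_pos S0]
    ring
  rw [e1, e2, abs_le]
  have h9 := le_abs_self (S * u - S * u')
  have h10 := neg_abs_le (S * u - S * u')
  have h11 := abs_nonneg (S * u - S * u')
  have h12 : (0 : ℝ) ≤ ms.length := Nat.cast_nonneg _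
  rcases h8 with k | k | k <;> constructor <;> linarith [k]

open Classical in
/-- The potential of the clusters that still play. -/
noncomputable def Pot (N : ℕ) (cl : ℕ → ℕ) (ok : ℕ → Prop) (ms : List (ℕ → ℕ)) : ℝ :=
  ∑ a ∈ (range N).image cl, if ok a then Psi (clu N cl a) ms else 0

theorem sum_card_clu (N : ℕ) (cl : ℕ → ℕ) :
    ∑ a ∈ (range N).image cl, (#(clu N cl a) : ℝ) = N := by
  have := card_eq_sum_card_image cl (range N)
  rw [card_range] at this
  exact_mod_cast this.symm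

variable {d B b N : ℕ}

theorem cutP_vp (hN : N ≤ 2 ^ b) {S : ℕ} (hS : 0 < S) (hB : N ≤ B) (hB' : 2 * S ≤ B) (cl : Arr ℕ)
    (ok : ℕ → Prop) (ms : List (Arr ℕ)) (h : ∀ a, ok a → ∀ m ∈ hist ms, Inv (clu N cl.get a) m)
    {δ : ℝ} (hδ : 2 * ms.length ≤ δ * S) {β : Type} {f : Arr ℕ → M β} {Q : β → ℕ → Prop}
    {Φ : β → ℝ} (hf : ∀ side, (∀ a, Halves (clu N cl.get a) side.get) →
      Vt d B (f side) fun r t => Q r (ms.length * (N + 2) + 6 * N + t) ∧
        ∃ (m : ℕ → ℕ) (ok' : ℕ → Prop), (∀ a, ok' a → ok a ∧ Ans (clu N cl.get a) side.get m) ∧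
          Φ r ≤ Pot N cl.get ok' (m :: hist ms)) :
    Vp d B (cutP N (2 * S) cl ms >>= f) Q Φ
      ((1 - 1 / (32 * (4 * b + 10))) * Pot N cl.get ok (hist ms) + N * δ ^ 2) := by
  classical
  have b0 : (0 : ℝ) ≤ b := Nat.cast_nonneg b
  have hk : ∀ a, 32 * (#(clu N cl.get a) : ℝ) ^ 2 ≤ Real.exp ((4 * b + 10) / 2) := fun a => by
    have h1 : (#(clu N cl.get a) : ℝ) ≤ 2 ^ b := by exact_mod_cast (card_clu_le _ _ _).trans hN
    have h2 : (2 : ℝ) ≤ Real.exp 1 := by linarith [Real.add_one_le_exp 1]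
    rw [show (4 * b + 10 : ℝ) / 2 = (2 * b + 5 : ℕ) * 1 by push_cast; ring, Real.exp_nat_mul]
    calc _ ≤ 32 * (2 ^ b : ℝ) ^ 2 := by gcongr
      _ = 2 ^ (2 * b + 5) := by ring
      _ ≤ _ := by gcongr
  choose! G G0 G1 G2 using fun a (ha : ok a) =>
    round (B := B) (clu_sub N cl.get a) (h a ha) (κ := 4 * b + 10) (by linarith) (hk a) δ
  unfold cutP
  rw [bind_assoc]
  refine (Vp.of_tri (signs_tri B N)
    (Φ := fun r => ∑ a ∈ (range N).image cl.get, if ok a then G a r else 0) ?_).bind ?_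
  · have := wp_sum (B := B) ((range N).image cl.get) (signs N)
      (fun a r _ => if ok a then G a r else 0) fun _ => 0
    rw [sum_const_zero] at this
    rw [this, Pot, ← sum_card_clu N cl.get, mul_sum, sum_mul, ← sum_add_distrib]
    refine sum_le_sum fun a _ => ?_
    by_cases k : ok a
    · simpa only [if_pos k] using G2 a k
    · simp only [if_neg k, wp_const, mul_zero, zero_add]
      positivity
  rintro r _ rfl
  refine Vp.of_vt ?_
  rw [bind_assoc]
  refine Vt.tbind (projP_tri (c := ⟨B, true⟩) hB' ms r) ?_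
  rintro U _ ⟨rfl, hU⟩
  refine Vt.tbind (splitP_tri (c := ⟨B, true⟩) cl U hB) ?_
  rintro side _ ⟨hs, rfl⟩
  refine (hf side fun a => (hs a).1).mono ?_
  rintro x t ⟨h1, m, ok', h2, h3⟩
  refine ⟨by rwa [show 2 * N + (ms.length * (N + 2) + N + (3 * N + t)) =
    ms.length * (N + 2) + 6 * N + t by ring], h3.trans (sum_le_sum fun a _ => ?_)⟩
  by_cases k : ok' a
  · obtain ⟨k1, k2⟩ := h2 a k
    rw [if_pos k, if_pos k1]
    exact G1 a k1 r m k2.1 (str_of hS (clu_sub _ _ _) (h a k1) r (hs a).1 (hU ▸ (hs a).2) k2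
      (by simpa [hist] using hδ))
  · rw [if_neg k]
    split_ifs with k1
    exacts [G0 a k1 r, le_rfl]

/-- The number of rounds. -/
def rounds (b : ℕ) : ℕ := 32 * (4 * b + 10) * (4 * b + 4)

theorem rounds_le (b : ℕ) : rounds b ≤ 2 ^ (b + 11) := by
  have h : ∀ b, (2 * b + 5) * (b + 1) ≤ 8 * 2 ^ b := fun b => by
    induction b with
    | zero => simp
    | succ b ih =>
      have : b < 2 ^ b := Nat.lt_two_pow_self
      rw [pow_succ]
      rcases b with _ | b
      · simp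
      · nlinarith
  have := h b
  unfold rounds
  rw [pow_add]
  nlinarith

/-- The game in all clusters at once; the result is the state of the matching player `mp` and the
list of its answers (the newest one first). -/
noncomputable def game {σ : Type} (b N : ℕ) (cl : Arr ℕ) (mp : σ → Arr ℕ → M (σ × Arr ℕ))
    (s : σ) : M (σ × List (Arr ℕ)) :=
  num (4 * b + 21) >>= fun k => pow2 k >>= fun X => num (rounds b) >>= fun T =>
  iterM (fun (s : σ × List (Arr ℕ)) _ => cutP N X cl s.2 >>= fun side =>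
    mp s.1 side >>= fun r => pure (r.1, r.2 :: s.2)) (s, []) T

@[fun_prop] theorem impl_game {α σ : Type} [Rep α] [Rep σ] {b N : α → ℕ} {cl : α → Arr ℕ}
    {mp : α → σ → Arr ℕ → M (σ × Arr ℕ)} {s : α → σ} (h1 : Pure b) (h2 : Pure N) (h3 : Pure cl)
    (h4 : Impl fun p : α × σ × Arr ℕ => mp p.1 p.2.1 p.2.2) (h5 : Pure s) :
    Impl fun a => game (b a) (N a) (cl a) (mp a) (s a) := by
  unfold game rounds
  fun_prop

theorem final_le (hN : N ≤ 2 ^ b) (hd : d ≤ b) :
    ((1 - 1 / (32 * (4 * b + 10) : ℝ)) ^ rounds b * N +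
      rounds b * (N * (2 * rounds b / 2 ^ (4 * b + 20) : ℝ) ^ 2)) * 2 ^ (d + 1) ≤
      1 / (4 * (2 ^ b) ^ 2) := by
  have b0 : (0 : ℝ) ≤ b := Nat.cast_nonneg b
  have h1 : (1 - 1 / (32 * (4 * b + 10) : ℝ)) ^ rounds b ≤ 1 / 2 ^ (4 * b + 4) := by
    have k1 : (1 - 1 / (32 * (4 * b + 10) : ℝ)) ≤ Real.exp (-(1 / (32 * (4 * b + 10)))) := by
      linarith [Real.add_one_le_exp (-(1 / (32 * (4 * b + 10) : ℝ)))]
    have k0 : (0 : ℝ) ≤ 1 - 1 / (32 * (4 * b + 10) : ℝ) :=
      sub_nonneg.2 ((div_le_one (by positivity)).2 (by linarith))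
    refine (pow_le_pow_left₀ k0 k1 _).trans ?_
    rw [← Real.exp_nat_mul, show (rounds b : ℝ) * -(1 / (32 * (4 * b + 10))) =
      -((4 * b + 4 : ℕ) * 1) by unfold rounds; push_cast; field_simp, Real.exp_neg,
      Real.exp_nat_mul, one_div]
    have h2 : (2 : ℝ) ≤ Real.exp 1 := by linarith [Real.add_one_le_exp 1]
    gcongr
  have h2 : (rounds b : ℝ) ≤ 2 ^ (b + 11) := by exact_mod_cast rounds_le b
  have h3 : (N : ℝ) ≤ 2 ^ b := by exact_mod_cast hN
  have h4 : (2 : ℝ) ^ (d + 1) ≤ 2 ^ (b + 1) := pow_le_pow_right₀ (by norm_num) (by omega)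
  calc _ ≤ (1 / 2 ^ (4 * b + 4) * 2 ^ b + 2 ^ (b + 11) *
        (2 ^ b * (2 * 2 ^ (b + 11) / 2 ^ (4 * b + 20) : ℝ) ^ 2)) * 2 ^ (b + 1) := by gcongr
    _ ≤ _ := by
        simp only [pow_add, mul_comm 4 b, pow_mul]
        have x1 : (1 : ℝ) ≤ 2 ^ b := one_le_pow₀ (by norm_num)
        generalize (2 : ℝ) ^ b = x at *
        rw [le_div_iff₀ (by positivity)]
        field_simp
        nlinarith

theorem Pot_nonneg {cl : ℕ → ℕ} {ok : ℕ → Prop} (ms : List (ℕ → ℕ)) : 0 ≤ Pot N cl ok ms :=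
  sum_nonneg fun a _ => by split_ifs; exacts [Psi_nonneg _ _, le_rfl]

theorem mixed_of_pot (hN : N ≤ 2 ^ b) {cl : ℕ → ℕ} {ok : ℕ → Prop} {ms : List (ℕ → ℕ)}
    (h : Pot N cl ok ms < 1 / (4 * (2 ^ b) ^ 2)) {a : ℕ} (ha : ok a) : Mixed (clu N cl a) ms := by
  classical
  rcases (clu N cl a).eq_empty_or_nonempty with e | ⟨i, hi⟩
  · simp [e, Mixed]
  have c0 : (0 : ℝ) < #(clu N cl a) := by exact_mod_cast card_pos.2 ⟨i, hi⟩
  have c1 : (#(clu N cl a) : ℝ) ≤ 2 ^ b := by exact_mod_cast (card_clu_le _ _ _).trans hN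
  refine mixed_of (lt_of_le_of_lt ?_ (h.trans_le (by gcongr)))
  have := single_le_sum (f := fun a => if ok a then Psi (clu N cl a) ms else 0)
    (fun a _ => by split_ifs; exacts [Psi_nonneg _ _, le_rfl])
    (mem_image.2 ⟨i, clu_sub _ _ _ hi, (mem_clu.1 hi).2⟩)
  rwa [if_pos ha] at this

theorem loop_vp {σ : Type} (hN : N ≤ 2 ^ b) {S T : ℕ} (hS : 0 < S) (hB : N ≤ B) (hB' : 2 * S ≤ B)
    (cl : Arr ℕ) {mp : σ → Arr ℕ → M (σ × Arr ℕ)} {s : σ} (I : ℕ → σ → List (Arr ℕ) → ℕ → Prop)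
    (ok : σ → ℕ → Prop) (h0 : I 0 s [] 0)
    (hstep : ∀ k s ms t side, k < T → ms.length = k → I k s ms t →
      (∀ a, Halves (clu N cl.get a) side.get) → Vt d B (mp s side) fun r t' =>
        I (k + 1) r.1 (r.2 :: ms) (t + (k * (N + 2) + 6 * N + t') + 1) ∧
        ∀ a, ok r.1 a → ok s a ∧ Ans (clu N cl.get a) side.get r.2.get) :
    Vp d B (iterM (fun (s : σ × List (Arr ℕ)) _ => cutP N (2 * S) cl s.2 >>= fun side =>
      mp s.1 side >>= fun r => pure (r.1, r.2 :: s.2)) (s, []) T)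
      (fun r t => I T r.1 r.2 t ∧ r.2.length = T ∧
        ∀ a, ok r.1 a → ∀ m ∈ hist r.2, Inv (clu N cl.get a) m)
      (fun r => Pot N cl.get (ok r.1) (hist r.2))
      ((1 - 1 / (32 * (4 * b + 10) : ℝ)) ^ T * N + T * (N * (2 * T / S : ℝ) ^ 2)) := by
  classical
  have b0 : (0 : ℝ) ≤ b := Nat.cast_nonneg b
  have S0 : (0 : ℝ) < S := by exact_mod_cast hS
  obtain ⟨ρ, hρ⟩ : ∃ ρ : ℝ, ρ = 1 - 1 / (32 * (4 * b + 10)) := ⟨_, rfl⟩
  have ρ0 : 0 ≤ ρ := hρ ▸ sub_nonneg.2 ((div_le_one (by positivity)).2 (by linarith))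
  have ρ1 : ρ ≤ 1 := hρ ▸ sub_le_self _ (by positivity)
  obtain ⟨δ, hδ⟩ : ∃ δ : ℝ, δ = 2 * T / S := ⟨_, rfl⟩
  rw [← hρ, ← hδ]
  refine (Vp.iterM (fun k (s : σ × List (Arr ℕ)) t => I k s.1 s.2 t ∧ s.2.length = k ∧
      ∀ a, ok s.1 a → ∀ m ∈ hist s.2, Inv (clu N cl.get a) m)
    (fun k s => ρ ^ (T - k) * Pot N cl.get (ok s.1) (hist s.2) + (T - k : ℕ) * (N * δ ^ 2))
    ⟨h0, rfl, by simp [hist]⟩ ?_).mono (fun r t h => ⟨h, by simp⟩) ?_
  · rintro k ⟨s, ms⟩ t hk ⟨h1, h2, h3⟩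
    dsimp only at h1 h2 h3 ⊢
    obtain ⟨j, hj⟩ : ∃ j, T - k = j + 1 := ⟨T - k - 1, by omega⟩
    rw [hj, show T - (k + 1) = j by omega]
    have key := cutP_vp (d := d) hN hS hB hB' cl (ok s) ms h3 (δ := δ)
      (f := fun side => mp s side >>= fun r => pure (r.1, r.2 :: ms))
      (Q := fun s' t' => I (k + 1) s'.1 s'.2 (t + t' + 1) ∧ s'.2.length = k + 1 ∧
        ∀ a, ok s'.1 a → ∀ m ∈ hist s'.2, Inv (clu N cl.get a) m)
      (Φ := fun s => Pot N cl.get (ok s.1) (hist s.2)) (by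
        have : (ms.length : ℝ) ≤ T := by exact_mod_cast (by omega)
        rw [hδ, div_mul_cancel₀ _ S0.ne']
        linarith) fun side hs => by
        refine (hstep k s ms t side hk h2 h1 hs).bind fun r t' ⟨k1, k2⟩ => Vt.pure
          ⟨⟨by rw [h2]; exact k1, by simpa using h2, ?_⟩, r.2.get, ok r.1, k2, le_rfl⟩
        intro a ha m hm
        rcases List.mem_cons.1 hm with rfl | hm
        exacts [(k2 a ha).2.1, h3 a (k2 a ha).1 m hm]
    refine (key.affine (pow_nonneg ρ0 j) (j * (N * δ ^ 2))).mono (fun _ _ h => ⟨h, le_rfl⟩) ?_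
    have := mul_le_of_le_one_left (show 0 ≤ N * δ ^ 2 by positivity) (pow_le_one₀ ρ0 ρ1 (n := j))
    rw [← hρ, pow_succ ρ j]
    push_cast
    linarith
  · refine add_le_add (mul_le_mul_of_nonneg_left ?_ (pow_nonneg ρ0 _)) le_rfl
    rw [← sum_card_clu N cl.get]
    refine sum_le_sum fun a _ => ?_
    split_ifs
    exacts [Psi_nil _, Nat.cast_nonneg _]

/-- The game: `I k s ms t` is the invariant of the matching player after `k` rounds, `ok s a` says
that cluster `a` has received only legal answers. At the end these clusters are mixed. -/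
theorem game_vt {σ : Type} (hN : N ≤ 2 ^ b) (hB : 2 ^ (4 * b + 21) ≤ B) (hd : d ≤ b) (cl : Arr ℕ)
    {mp : σ → Arr ℕ → M (σ × Arr ℕ)} {s : σ} (I : ℕ → σ → List (Arr ℕ) → ℕ → Prop)
    (ok : σ → ℕ → Prop) (h0 : I 0 s [] 0)
    (hstep : ∀ k s ms t side, k < rounds b → ms.length = k → I k s ms t →
      (∀ a, Halves (clu N cl.get a) side.get) → Vt d B (mp s side) fun r t' =>
        I (k + 1) r.1 (r.2 :: ms) (t + (k * (N + 2) + 6 * N + t') + 1) ∧
        ∀ a, ok r.1 a → ok s a ∧ Ans (clu N cl.get a) side.get r.2.get)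
    {S : ℕ} (hS : ∀ s ms t, I (rounds b) s ms t → t ≤ S) :
    Vt d B (game b N cl mp s) fun r t => (∃ t' ≤ S, I (rounds b) r.1 r.2 t') ∧
      r.2.length = rounds b ∧ (∀ a, ok r.1 a → (∀ m ∈ hist r.2, Inv (clu N cl.get a) m) ∧
        Mixed (clu N cl.get a) (hist r.2)) ∧ t = S + 1 := by
  classical
  have p1 : 4 * b + 21 < 2 ^ (4 * b + 21) := Nat.lt_two_pow_self
  have p2 : 2 ^ (b + 11) ≤ 2 ^ (4 * b + 21) := Nat.pow_le_pow_right (by omega) (by omega)
  have p3 : 2 ^ b ≤ 2 ^ (4 * b + 21) := Nat.pow_le_pow_right (by omega) (by omega)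
  have p4 := rounds_le b
  have p5 : 2 ^ (4 * b + 21) = 2 * 2 ^ (4 * b + 20) := by ring
  have main := loop_vp (d := d) hN (S := 2 ^ (4 * b + 20)) (by positivity) (by omega) (p5 ▸ hB) cl
    I ok h0 hstep
  rw [← p5] at main
  push_cast at main
  have main' := main.mono (Q' := fun r t => (I (rounds b) r.1 r.2 t ∧ r.2.length = rounds b ∧
    ∀ a, ok r.1 a → ∀ m ∈ hist r.2, Inv (clu N cl.get a) m) ∧ t ≤ S)
    (fun r t h => ⟨⟨h, hS _ _ _ h.1⟩, le_rfl⟩) le_rfl
  have fin := main'.markov (G := fun r => ∀ a, ok r.1 a → Mixed (clu N cl.get a) (hist r.2))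
    (by positivity) (final_le hN hd)
    (fun r _ _ => Pot_nonneg _) fun r t _ h a ha => mixed_of_pot hN h ha
  unfold game
  refine Vt.num_bind (by omega) (Vt.tbind' ((Tri_pow2 _ _).2 ⟨hB, Vt.num_bind (by omega) ?_⟩))
  refine fin.mono ?_
  rintro r t ⟨⟨t', k1, k2, k3, k4⟩, k5, k6⟩
  exact ⟨⟨t', k1, k2⟩, k3, fun a ha => ⟨k4 a ha, k5 a ha⟩, by omega⟩

end Vale.Agent.P305K
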