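import Vale.Agent.P305K.Walk
import Vale.Agent.P305E.WpLoop
import Vale.Agent.P305E.MinArr

/-!
# Cut-matching game, part 2: random signs and the drop of the potential in one round
-/

namespace Vale.Agent.P305K

open Finset Vale.Agent.P305E

/-- `n` random bits. -/
def signs (n : ℕ) : M (Arr Bool) :=
  iterM (fun s k => flip >>= fun x => pure (s.set k x)) (Arr.const false) n

@[fun_prop] theorem impl_signs {α : Type} [Rep α] {n : α → ℕ} (h : Pure n) :
    Impl fun a => signs (n a) := by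
  unfold signs
  fun_prop

theorem signs_tri (B n : ℕ) : Tri ⟨B, true⟩ (signs n) fun _ t => t = 2 * n :=
  Tri.iterM (fun i _ t => t = 2 * i) rfl (by
    rintro i s _ - rfl
    simp only [Tri_bind, Tri_flip, Tri_pure, true_and]
    intro _
    omega)

/-- The sign of a bit. -/
def sg (b : Bool) : ℝ := if b = true then 1 else -1

theorem sg_sq (b : Bool) : sg b ^ 2 = 1 := by cases b <;> simp [sg]

variable {B : ℕ}

theorem wp_signs_succ (n : ℕ) (F : Arr Bool → ℝ) : wp B (signs (n + 1)) (fun s _ => F s) 0 =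
    wp B (signs n) (fun s _ => (F (s.set n true) + F (s.set n false)) / 2) 0 := by
  simp only [signs, iterM_succ, wp_bind, wp_pure, wp_tick, wp_flip]

theorem sum_set (n : ℕ) (s : Arr Bool) (b : Bool) (x : ℕ → ℝ) :
    ∑ j ∈ range (n + 1), sg ((s.set n b).get j) * x j =
      ∑ j ∈ range n, sg (s.get j) * x j + sg b * x n := by
  rw [sum_range_succ, Arr.get_set_self]
  congr 1
  exact sum_congr rfl fun j hj => by rw [Arr.get_set_ne _ (mem_range.1 hj).ne]

theorem wp_signs_const (n : ℕ) (c : ℝ) : wp B (signs n) (fun _ _ => c) 0 = c := by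
  rw [wp_fail_irrel (signs_tri B n) _ 0 c, wp_const]

theorem wp_sq (n : ℕ) (x : ℕ → ℝ) :
    wp B (signs n) (fun s _ => (∑ j ∈ range n, sg (s.get j) * x j) ^ 2) 0 =
      ∑ j ∈ range n, x j ^ 2 := by
  induction n with
  | zero => simp
  | succ n ih =>
    rw [wp_signs_succ n fun s => (∑ j ∈ range (n + 1), sg (s.get j) * x j) ^ 2, sum_range_succ,
      ← ih, ← wp_signs_const (B := B) n (x n ^ 2), ← wp_add, add_zero]
    refine wp_congr fun s _ => ?_
    simp only [sum_set]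
    simp only [sg, if_true, Bool.false_eq_true, if_false]
    ring

theorem wp_exp (n : ℕ) (x : ℕ → ℝ) :
    wp B (signs n) (fun s _ => Real.exp (∑ j ∈ range n, sg (s.get j) * x j)) 0 ≤
      Real.exp ((∑ j ∈ range n, x j ^ 2) / 2) := by
  induction n with
  | zero => simp [wp_signs_const]
  | succ n ih =>
    rw [wp_signs_succ n fun s => Real.exp (∑ j ∈ range (n + 1), sg (s.get j) * x j),
      sum_range_succ, add_div, Real.exp_add]
    refine le_trans ?_ (mul_le_mul_of_nonneg_right ih (Real.exp_pos _).le)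
    rw [← wp_mul_right, zero_mul]
    refine wp_mono (fun s _ => ?_) le_rfl
    simp only [sum_set, Real.exp_add]
    have h := mul_le_mul_of_nonneg_left (exp_sign_le (x n))
      (Real.exp_pos (∑ j ∈ range n, sg (s.get j) * x j)).le
    simp only [sg, if_true, Bool.false_eq_true, if_false, one_mul, neg_mul] at h ⊢
    linarith

variable {K : Finset ℕ} {n : ℕ}

theorem sum_ext (hK : K ⊆ range n) (f : ℕ → ℝ) :
    ∑ j ∈ range n, (if j ∈ K then f j else 0) = ∑ j ∈ K, f j := by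
  rw [← sum_filter, filter_mem_eq_inter, inter_eq_right.2 hK]

theorem wp_sq' (hK : K ⊆ range n) (x : ℕ → ℝ) :
    wp B (signs n) (fun s _ => (∑ j ∈ K, sg (s.get j) * x j) ^ 2) 0 = ∑ j ∈ K, x j ^ 2 := by
  have := wp_sq (B := B) n fun j => if j ∈ K then x j else 0
  simpa only [mul_ite, mul_zero, ite_pow, ne_eq, OfNat.ofNat_ne_zero, not_false_eq_true, zero_pow,
    sum_ext hK] using this

theorem wp_exp' (hK : K ⊆ range n) (x : ℕ → ℝ) :
    wp B (signs n) (fun s _ => Real.exp (∑ j ∈ K, sg (s.get j) * x j)) 0 ≤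
      Real.exp ((∑ j ∈ K, x j ^ 2) / 2) := by
  have := wp_exp (B := B) n fun j => if j ∈ K then x j else 0
  simpa only [mul_ite, mul_zero, ite_pow, ne_eq, OfNat.ofNat_ne_zero, not_false_eq_true, zero_pow,
    sum_ext hK] using this

/-- The square of a projection is at most `κ` times the squared norm, up to a term of small
expectation. -/
theorem tail (hK : K ⊆ range n) (x : ℕ → ℝ) {κ : ℝ} (hκ : 0 ≤ κ) : ∃ G : Arr Bool → ℝ,
    (∀ s, 0 ≤ G s) ∧ (∀ s, (∑ j ∈ K, sg (s.get j) * x j) ^ 2 ≤ κ * ∑ j ∈ K, x j ^ 2 + G s) ∧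
    wp B (signs n) (fun s _ => G s) 0 ≤ 2 * #K * Real.exp (-(κ / 2)) * ∑ j ∈ K, x j ^ 2 := by
  obtain ⟨q, hq⟩ : ∃ q, q = ∑ j ∈ K, x j ^ 2 := ⟨_, rfl⟩
  have q0 : 0 ≤ q := hq ▸ sum_nonneg fun _ _ => sq_nonneg _
  have cs : ∀ s : Arr Bool, (∑ j ∈ K, sg (s.get j) * x j) ^ 2 ≤ #K * q := fun s => by
    simpa [sg_sq, ← hq] using sum_mul_sq_le_sq_mul_sq K (fun j => sg (s.get j)) x
  rw [← hq]
  rcases q0.eq_or_lt with rfl | q0
  · exact ⟨fun _ => 0, fun _ => le_rfl, fun s => by simpa using cs s, by simp⟩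
  obtain ⟨l, l0, hl⟩ : ∃ l, 0 ≤ l ∧ l ^ 2 * q = κ :=
    ⟨Real.sqrt (κ / q), Real.sqrt_nonneg _, by rw [Real.sq_sqrt (by positivity)]; field_simp⟩
  refine ⟨fun s => #K * q * Real.exp (-κ) * Real.exp (∑ j ∈ K, sg (s.get j) * (l * x j)) +
    #K * q * Real.exp (-κ) * Real.exp (∑ j ∈ K, sg (s.get j) * (-l * x j)),
    fun s => by positivity, fun s => ?_, ?_⟩
  · have e : ∀ a : ℝ, ∑ j ∈ K, sg (s.get j) * (a * x j) = a * ∑ j ∈ K, sg (s.get j) * x j :=
      fun a => by rw [mul_sum]; exact sum_congr rfl fun j _ => by ring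
    have h1 := cs s
    simp only [e]
    generalize ∑ j ∈ K, sg (s.get j) * x j = y at *
    have p0 : (0 : ℝ) ≤ #K * q := by positivity
    have p1 : ∀ z, 0 ≤ #K * q * Real.exp (-κ) * Real.exp z := fun z => by positivity
    have p2 : ∀ z, κ ≤ z → #K * q ≤ #K * q * Real.exp (-κ) * Real.exp z := fun z hz => by
      rw [mul_assoc, ← Real.exp_add]
      exact le_mul_of_one_le_right p0 (Real.one_le_exp (by linarith))
    by_cases h : y ^ 2 ≤ κ * q
    · linarith [p1 (l * y), p1 (-l * y)]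
    · have h2 : κ ≤ |l * y| := by
        refine le_of_sq_le_sq ?_ (abs_nonneg _) |>.trans le_rfl
        rw [sq_abs, mul_pow]
        nlinarith [mul_le_mul_of_nonneg_left (not_le.1 h).le (sq_nonneg l)]
      have h3 : 0 ≤ κ * q := by positivity
      rcases le_abs.1 h2 with h2 | h2
      · linarith [p2 _ h2, p1 (-l * y)]
      · linarith [p2 (-l * y) (by linarith), p1 (l * y)]
  · have w : ∀ a : ℝ, a ^ 2 = l ^ 2 → wp B (signs n) (fun s _ => #K * q * Real.exp (-κ) *
        Real.exp (∑ j ∈ K, sg (s.get j) * (a * x j))) 0 ≤ #K * Real.exp (-(κ / 2)) * q := by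
      intro a ha
      have h1 := wp_mul_left (B := B) (signs n) (#K * q * Real.exp (-κ))
        (fun s _ => Real.exp (∑ j ∈ K, sg (s.get j) * (a * x j))) 0
      rw [mul_zero] at h1
      rw [h1]
      refine (mul_le_mul_of_nonneg_left (wp_exp' hK fun j => a * x j) (by positivity)).trans
        (le_of_eq ?_)
      simp only [mul_pow, ← mul_sum, ← hq, ha, hl]
      rw [mul_assoc, ← Real.exp_add, show -κ + κ / 2 = -(κ / 2) by ring]
      ring
    refine (wp_le_add (q := 0) (r := 0) (fun _ _ => le_rfl) (by simp)).trans ?_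
    linarith [w l rfl, w (-l) (neg_sq l)]

/-- The pairs of `m` straddle a threshold for the projection along the signs `s`. -/
def Str (K : Finset ℕ) (ms : List (ℕ → ℕ)) (δ : ℝ) (s : Arr Bool) (m : ℕ → ℕ) : Prop :=
  ∃ η : ℝ, ∀ i ∈ K, |walk ms (fun j => sg (s.get j)) i - η| ≤
    |walk ms (fun j => sg (s.get j)) i - walk ms (fun j => sg (s.get j)) (m i)| + δ

/-- One round: whatever the matching is, the potential drops in expectation. -/
theorem round (hK : K ⊆ range n) {ms : List (ℕ → ℕ)} (h : ∀ m ∈ ms, Inv K m) {κ : ℝ}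
    (hκ : 1 ≤ κ) (hk : 32 * (#K : ℝ) ^ 2 ≤ Real.exp (κ / 2)) (δ : ℝ) : ∃ G : Arr Bool → ℝ,
    (∀ s, 0 ≤ G s) ∧ (∀ s m, Inv K m → Str K ms δ s m → Psi K (m :: ms) ≤ G s) ∧
    wp B (signs n) (fun s _ => G s) 0 ≤ (1 - 1 / (32 * κ)) * Psi K ms + #K * δ ^ 2 := by
  choose T T0 T1 T2 using fun i i' =>
    tail (B := B) hK (fun j => pw ms i j - pw ms i' j) (κ := κ) (by linarith)
  choose U U0 U1 U2 using fun i =>
    tail (B := B) hK (fun j => pw ms i j - 1 / #K) (κ := κ) (by linarith)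
  have κ0 : 0 < κ := by linarith
  have P0 := Psi_nonneg K ms
  obtain ⟨V, hV⟩ : ∃ V : Arr Bool → ℝ,
      V = fun s => ∑ i ∈ K, (∑ j ∈ K, sg (s.get j) * (pw ms i j - 1 / #K)) ^ 2 := ⟨_, rfl⟩
  have TT : ∀ s, 0 ≤ ∑ i ∈ K, ∑ i' ∈ K, T i i' s := fun s =>
    sum_nonneg fun _ _ => sum_nonneg fun _ _ => T0 _ _ _
  have d0 : 0 ≤ #K * δ ^ 2 := by positivity
  refine ⟨fun s => (Psi K ms + #K * δ ^ 2) + (-(1 / (8 * κ)) * V s +
    (1 / (4 * κ) * ∑ i ∈ K, ∑ i' ∈ K, T i i' s + 1 / (8 * κ) * ∑ i ∈ K, U i s)),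
    fun s => ?_, fun s m hm ⟨η, hη⟩ => ?_, ?_⟩
  · have h1 : V s ≤ κ * Psi K ms + ∑ i ∈ K, U i s := by
      rw [hV, Psi, mul_sum, ← sum_add_distrib]
      exact sum_le_sum fun i _ => U1 i s
    have h2 := mul_le_mul_of_nonneg_left h1 (show 0 ≤ 1 / (8 * κ) by positivity)
    have h3 : 1 / (8 * κ) * (κ * Psi K ms) = Psi K ms / 8 := by field_simp
    have h4 := mul_nonneg (show 0 ≤ 1 / (4 * κ) by positivity) (TT s)
    rw [mul_add, h3] at h2
    linarith
  · have h1 := spread_le h _ hη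
    have h2 : ∑ i ∈ K, (walk ms (fun j => sg (s.get j)) i -
        walk ms (fun j => sg (s.get j)) (m i)) ^ 2 ≤
        κ * ∑ i ∈ K, ds K ms i (m i) + ∑ i ∈ K, ∑ i' ∈ K, T i i' s := by
      rw [mul_sum, ← sum_add_distrib]
      refine sum_le_sum fun i hi => ?_
      rw [walk_eq h _ i hi, walk_eq h _ _ (hm i hi).1, ← sum_sub_distrib]
      simp only [← mul_sub]
      exact (T1 i (m i) s).trans (add_le_add le_rfl
        (single_le_sum (f := fun i' => T i i' s) (fun _ _ => T0 _ _ _) (hm i hi).1))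
    have h3 : V s ≤ 2 * κ * ∑ i ∈ K, ds K ms i (m i) + 2 * ∑ i ∈ K, ∑ i' ∈ K, T i i' s +
        2 * (#K * δ ^ 2) := by
      rw [hV]
      linarith
    have h4 := mul_le_mul_of_nonneg_left h3 (show 0 ≤ 1 / (8 * κ) by positivity)
    have h5 : 1 / (8 * κ) * (2 * κ * ∑ i ∈ K, ds K ms i (m i) + 2 * ∑ i ∈ K, ∑ i' ∈ K, T i i' s +
        2 * (#K * δ ^ 2)) = (∑ i ∈ K, ds K ms i (m i)) / 4 +
        1 / (4 * κ) * ∑ i ∈ K, ∑ i' ∈ K, T i i' s + 1 / (4 * κ) * (#K * δ ^ 2) := by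
      field_simp
      ring
    have h6 : 1 / (4 * κ) * (#K * δ ^ 2) ≤ #K * δ ^ 2 :=
      mul_le_of_le_one_left d0 ((div_le_one (by positivity)).2 (by linarith))
    have h7 := mul_nonneg (show 0 ≤ 1 / (8 * κ) by positivity)
      (sum_nonneg fun i (_ : i ∈ K) => U0 i s)
    rw [Psi_cons hm]
    linarith
  · have wm : ∀ (c : ℝ) (F : Arr Bool → ℝ), wp B (signs n) (fun s _ => c * F s) 0 =
        c * wp B (signs n) (fun s _ => F s) 0 := fun c F => by
      rw [← wp_mul_left, mul_zero]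
    have wa : ∀ F G : Arr Bool → ℝ, wp B (signs n) (fun s _ => F s + G s) 0 =
        wp B (signs n) (fun s _ => F s) 0 + wp B (signs n) (fun s _ => G s) 0 := fun F G => by
      rw [← wp_add, add_zero]
    have ws : ∀ F : ℕ → Arr Bool → ℝ, wp B (signs n) (fun s _ => ∑ i ∈ K, F i s) 0 =
        ∑ i ∈ K, wp B (signs n) (fun s _ => F i s) 0 := fun F => by
      rw [← wp_sum]; simp
    have e1 : wp B (signs n) (fun s _ => V s) 0 = Psi K ms := by
      rw [hV, ws]
      exact sum_congr rfl fun i _ => wp_sq' hK _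
    have e2 : wp B (signs n) (fun s _ => ∑ i ∈ K, ∑ i' ∈ K, T i i' s) 0 ≤
        2 * #K * Real.exp (-(κ / 2)) * (4 * #K * Psi K ms) := by
      rw [ws fun i s => ∑ i' ∈ K, T i i' s]
      refine le_trans ?_ (mul_le_mul_of_nonneg_left sum_ds_le (by positivity))
      rw [mul_sum]
      refine sum_le_sum fun i _ => ?_
      rw [ws fun i' s => T i i' s, mul_sum]
      exact sum_le_sum fun i' _ => T2 i i'
    have e3 : wp B (signs n) (fun s _ => ∑ i ∈ K, U i s) 0 ≤
        2 * #K * Real.exp (-(κ / 2)) * Psi K ms := by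
      rw [ws, Psi, mul_sum]
      exact sum_le_sum fun i _ => U2 i
    have e4 : 32 * (#K : ℝ) ^ 2 * Real.exp (-(κ / 2)) ≤ 1 := by
      rw [Real.exp_neg, ← div_eq_mul_inv, div_le_one (Real.exp_pos _)]
      exact hk
    have e5 : (#K : ℝ) ≤ (#K : ℝ) ^ 2 := by exact_mod_cast Nat.le_self_pow two_ne_zero _
    have e6 := mul_le_mul_of_nonneg_right e5 (Real.exp_pos (-(κ / 2))).le
    have e7 := mul_le_mul_of_nonneg_left (e2.trans (show _ ≤ Psi K ms / 4 by nlinarith))
      (show 0 ≤ 1 / (4 * κ) by positivity)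
    have e8 := mul_le_mul_of_nonneg_left (e3.trans (show _ ≤ Psi K ms / 4 by nlinarith))
      (show 0 ≤ 1 / (8 * κ) by positivity)
    rw [wa (fun _ => Psi K ms + #K * δ ^ 2), wp_signs_const, wa, wm, wa, wm, wm, e1]
    have e9 : (1 - 1 / (32 * κ)) * Psi K ms = Psi K ms + (-(1 / (8 * κ)) * Psi K ms +
        (1 / (4 * κ) * (Psi K ms / 4) + 1 / (8 * κ) * (Psi K ms / 4))) := by
      field_simp
      ring
    linarith

end Vale.Agent.P305K
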