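import Mathlib.Tactic
import Mathlib.Analysis.SpecialFunctions.Exp

/-!
# Cut-matching game, part 1: the walk along a sequence of matchings and its potential
-/

namespace Vale.Agent.P305K

open Finset

noncomputable section

/-- The walk along the matchings (the newest one first). -/
def walk : List (ℕ → ℕ) → (ℕ → ℝ) → ℕ → ℝ
  | [], x => x
  | m :: ms, x => fun i => (walk ms x i + walk ms x (m i)) / 2

/-- `m` is an involution of `K`. -/
def Inv (K : Finset ℕ) (m : ℕ → ℕ) : Prop := ∀ i ∈ K, m i ∈ K ∧ m (m i) = i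

/-- The unit mass at `j`. -/
def dl (j : ℕ) : ℕ → ℝ := fun i => if i = j then 1 else 0

/-- The share of the mass of token `j` that is at token `i`. -/
def pw (ms : List (ℕ → ℕ)) (i j : ℕ) : ℝ := walk ms (dl j) i

/-- The potential. -/
def Psi (K : Finset ℕ) (ms : List (ℕ → ℕ)) : ℝ := ∑ i ∈ K, ∑ j ∈ K, (pw ms i j - 1 / #K) ^ 2

/-- All shares are close to uniform. -/
def Mixed (K : Finset ℕ) (ms : List (ℕ → ℕ)) : Prop :=
  ∀ i ∈ K, ∀ j ∈ K, |pw ms i j - 1 / #K| ≤ 1 / (2 * #K)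

variable {K : Finset ℕ} {m : ℕ → ℕ} {ms : List (ℕ → ℕ)}

theorem Inv.sum (h : Inv K m) (f : ℕ → ℝ) : ∑ i ∈ K, f (m i) = ∑ i ∈ K, f i :=
  sum_nbij' m m (fun i hi => (h i hi).1) (fun i hi => (h i hi).1) (fun i hi => (h i hi).2)
    (fun i hi => (h i hi).2) fun _ _ => rfl

theorem pw_cons (i j : ℕ) : pw (m :: ms) i j = (pw ms i j + pw ms (m i) j) / 2 := rfl

theorem walk_mono {x y : ℕ → ℝ} (h : ∀ i, x i ≤ y i) (i : ℕ) : walk ms x i ≤ walk ms y i := by
  induction ms generalizing i with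
  | nil => exact h i
  | cons m ms ih => simp only [walk]; linarith [ih i, ih (m i)]

theorem walk_const (c : ℝ) (i : ℕ) : walk ms (fun _ => c) i = c := by
  induction ms generalizing i with
  | nil => rfl
  | cons m ms ih => simp only [walk, ih]; ring

theorem walk_affine (a c : ℝ) (x : ℕ → ℝ) (i : ℕ) :
    walk ms (fun j => a * x j + c) i = a * walk ms x i + c := by
  induction ms generalizing i with
  | nil => rfl
  | cons m ms ih => simp only [walk, ih]; ring

theorem pw_nonneg (i j : ℕ) : 0 ≤ pw ms i j :=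
  (walk_const 0 i).ge.trans (walk_mono (fun i => by unfold dl; split_ifs <;> norm_num) i)

theorem pw_le_one (i j : ℕ) : pw ms i j ≤ 1 :=
  (walk_mono (fun i => by unfold dl; split_ifs <;> norm_num) i).trans (walk_const 1 i).le

theorem walk_eq (h : ∀ m ∈ ms, Inv K m) (x : ℕ → ℝ) :
    ∀ i ∈ K, walk ms x i = ∑ j ∈ K, x j * pw ms i j := by
  induction ms with
  | nil => intro i hi; simp [walk, pw, dl, hi]
  | cons m ms ih =>
    intro i hi
    have ih := ih fun m hm => h m (by simp [hm])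
    simp only [walk, pw_cons]
    rw [ih i hi, ih _ (h m (by simp) i hi).1, ← sum_add_distrib, sum_div]
    exact sum_congr rfl fun j _ => by ring

theorem sum_walk (h : ∀ m ∈ ms, Inv K m) (x : ℕ → ℝ) : ∑ i ∈ K, walk ms x i = ∑ i ∈ K, x i := by
  induction ms with
  | nil => rfl
  | cons m ms ih =>
    have ih := ih fun m hm => h m (by simp [hm])
    simp only [walk]
    rw [← sum_div, sum_add_distrib, (h m (by simp)).sum (walk ms x), ih]
    ring

theorem sum_pw_row (h : ∀ m ∈ ms, Inv K m) {i : ℕ} (hi : i ∈ K) : ∑ j ∈ K, pw ms i j = 1 := by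
  simpa [walk_const] using (walk_eq h (fun _ => 1) i hi).symm

theorem sum_pw_col (h : ∀ m ∈ ms, Inv K m) {j : ℕ} (hj : j ∈ K) : ∑ i ∈ K, pw ms i j = 1 := by
  simpa [dl, hj, pw] using sum_walk h (dl j)

theorem Psi_nonneg (K : Finset ℕ) (ms : List (ℕ → ℕ)) : 0 ≤ Psi K ms :=
  sum_nonneg fun _ _ => sum_nonneg fun _ _ => sq_nonneg _

theorem Psi_nil (K : Finset ℕ) : Psi K [] ≤ #K := by
  have : ∀ i ∈ K, ∑ j ∈ K, (pw [] i j - 1 / #K) ^ 2 ≤ 1 := fun i hi => by
    have k : (0 : ℝ) < #K := by exact_mod_cast card_pos.2 ⟨i, hi⟩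
    have e : ∀ j ∈ K, (pw [] i j - 1 / #K) ^ 2 =
        (if i = j then 1 - 2 / (#K : ℝ) else 0) + (1 / #K) ^ 2 := fun j _ => by
      simp only [pw, walk, dl]
      split_ifs <;> ring
    rw [sum_congr rfl e, sum_add_distrib, sum_ite_eq, if_pos hi, sum_const, nsmul_eq_mul]
    have : (#K : ℝ) * (1 / #K) ^ 2 = 1 / #K := by field_simp
    have h2 : (2 : ℝ) / #K = 2 * (1 / #K) := by ring
    have h3 : (0 : ℝ) ≤ 1 / #K := by positivity
    linarith
  simpa [Psi] using sum_le_card_nsmul K _ 1 this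

/-- The squared distance of the shares of two tokens. -/
def ds (K : Finset ℕ) (ms : List (ℕ → ℕ)) (i i' : ℕ) : ℝ := ∑ j ∈ K, (pw ms i j - pw ms i' j) ^ 2

theorem ds_nonneg (i i' : ℕ) : 0 ≤ ds K ms i i' := sum_nonneg fun _ _ => sq_nonneg _

theorem Psi_cons (h : Inv K m) : Psi K (m :: ms) = Psi K ms - (∑ i ∈ K, ds K ms i (m i)) / 4 := by
  have e := h.sum fun i => ∑ j ∈ K, (pw ms i j - 1 / #K) ^ 2
  have e2 : Psi K (m :: ms) = ∑ i ∈ K, ((∑ j ∈ K, (pw ms i j - 1 / #K) ^ 2) / 2 +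
      (∑ j ∈ K, (pw ms (m i) j - 1 / #K) ^ 2) / 2 - ds K ms i (m i) / 4) :=
    sum_congr rfl fun i _ => by
      simp only [ds, sum_div, ← sum_add_distrib, ← sum_sub_distrib, pw_cons]
      exact sum_congr rfl fun j _ => by ring
  rw [e2, sum_sub_distrib, sum_add_distrib, ← sum_div, ← sum_div, ← sum_div, e]
  unfold Psi
  ring

theorem sum_ds_le : ∑ i ∈ K, ∑ i' ∈ K, ds K ms i i' ≤ 4 * #K * Psi K ms := by
  calc _ ≤ ∑ i ∈ K, ∑ i' ∈ K, (2 * ∑ j ∈ K, (pw ms i j - 1 / #K) ^ 2 +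
        2 * ∑ j ∈ K, (pw ms i' j - 1 / #K) ^ 2) := by
        refine sum_le_sum fun i _ => sum_le_sum fun i' _ => ?_
        simp only [ds, mul_sum, ← sum_add_distrib]
        exact sum_le_sum fun j _ => by
          nlinarith [sq_nonneg (pw ms i j + pw ms i' j - 2 * (1 / #K))]
    _ = _ := by
        simp only [sum_add_distrib, sum_const, nsmul_eq_mul, ← mul_sum, Psi]
        ring

/-- The spread of the projections is bounded by their differences along a matching that
straddles a threshold. -/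
theorem spread_le (h : ∀ m ∈ ms, Inv K m) (x : ℕ → ℝ) {η δ : ℝ}
    (hs : ∀ i ∈ K, |walk ms x i - η| ≤ |walk ms x i - walk ms x (m i)| + δ) :
    ∑ i ∈ K, (∑ j ∈ K, x j * (pw ms i j - 1 / #K)) ^ 2 ≤
      2 * ∑ i ∈ K, (walk ms x i - walk ms x (m i)) ^ 2 + 2 * #K * δ ^ 2 := by
  rcases K.eq_empty_or_nonempty with rfl | hK
  · simp
  have k : (0 : ℝ) < #K := by exact_mod_cast card_pos.2 hK
  obtain ⟨c, hc⟩ : ∃ c, c = (∑ j ∈ K, x j) / #K := ⟨_, rfl⟩
  have e : ∀ i ∈ K, ∑ j ∈ K, x j * (pw ms i j - 1 / #K) = walk ms x i - c := fun i hi => by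
    rw [walk_eq h x i hi, hc, sum_div, ← sum_sub_distrib]
    exact sum_congr rfl fun j _ => by ring
  have e0 : ∑ i ∈ K, (walk ms x i - c) = 0 := by
    rw [sum_sub_distrib, sum_walk h, sum_const, nsmul_eq_mul, hc]
    field_simp
    ring
  calc _ = ∑ i ∈ K, (walk ms x i - c) ^ 2 := sum_congr rfl fun i hi => by rw [e i hi]
    _ = ∑ i ∈ K, ((walk ms x i - c) ^ 2 + 2 * (c - η) * (walk ms x i - c)) := by
        rw [sum_add_distrib, ← mul_sum, e0]; ring
    _ ≤ ∑ i ∈ K, (2 * (walk ms x i - walk ms x (m i)) ^ 2 + 2 * δ ^ 2) := by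
        refine sum_le_sum fun i hi => ?_
        have h1 := pow_le_pow_left₀ (abs_nonneg _) (hs i hi) 2
        rw [sq_abs] at h1
        nlinarith [sq_nonneg (c - η), sq_abs (walk ms x i - walk ms x (m i)),
          sq_nonneg (|walk ms x i - walk ms x (m i)| - δ)]
    _ = _ := by
        rw [sum_add_distrib, ← mul_sum, sum_const, nsmul_eq_mul]; ring

theorem mixed_of (h : Psi K ms < 1 / (4 * (#K : ℝ) ^ 2)) : Mixed K ms := fun i hi j hj => by
  have h1 : (pw ms i j - 1 / #K) ^ 2 ≤ Psi K ms :=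
    (single_le_sum (f := fun j => (pw ms i j - 1 / #K) ^ 2) (fun _ _ => sq_nonneg _) hj).trans
      (single_le_sum (f := fun i => ∑ j ∈ K, (pw ms i j - 1 / #K) ^ 2)
        (fun _ _ => sum_nonneg fun _ _ => sq_nonneg _) hi)
  refine abs_le_of_sq_le_sq ?_ (by positivity)
  rw [div_pow, mul_pow]
  norm_num at h ⊢
  norm_num at h1
  linarith

theorem Mixed.low (h : Mixed K ms) {i j : ℕ} (hi : i ∈ K) (hj : j ∈ K) :
    1 / (2 * (#K : ℝ)) ≤ pw ms i j := by
  have := (abs_le.1 (h i hi j hj)).1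
  have e : (1 : ℝ) / #K = 2 * (1 / (2 * #K)) := by ring
  linarith

theorem Mixed.up (h : Mixed K ms) {i j : ℕ} (hi : i ∈ K) (hj : j ∈ K) :
    pw ms i j ≤ 3 / (2 * (#K : ℝ)) := by
  have := (abs_le.1 (h i hi j hj)).2
  have e : (3 : ℝ) / (2 * #K) = 1 / #K + 1 / (2 * #K) := by ring
  linarith

/-- The number of pairs of the matchings that leave `S`. -/
def cross (S : Finset ℕ) (ms : List (ℕ → ℕ)) : ℕ := (ms.map fun m => #{i ∈ S | m i ∉ S}).sum

theorem out_le (h : ∀ m ∈ ms, Inv K m) {S : Finset ℕ} (hS : S ⊆ K) :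
    2 * ∑ i ∈ K \ S, walk ms (fun j => if j ∈ S then 1 else 0) i ≤ cross S ms := by
  induction ms with
  | nil =>
    rw [sum_eq_zero fun i hi => by simp [walk, (mem_sdiff.1 hi).2]]
    simp
  | cons m ms ih =>
    have ih := ih fun m hm => h m (by simp [hm])
    have hm := h m (by simp)
    obtain ⟨x, hx⟩ : ∃ x, x = walk ms fun j => if j ∈ S then 1 else 0 := ⟨_, rfl⟩
    have x0 : ∀ i, 0 ≤ x i := fun i => hx ▸
      (walk_const 0 i).ge.trans (walk_mono (fun i => by split_ifs <;> norm_num) i)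
    have x1 : ∀ i, x i ≤ 1 := fun i => hx ▸
      (walk_mono (fun i => by split_ifs <;> norm_num) i).trans (walk_const 1 i).le
    have e1 : ∑ i ∈ K \ S, x (m i) = ∑ i ∈ K, if m i ∈ S then 0 else x i := by
      rw [← hm.sum fun i => if m i ∈ S then 0 else x i, sdiff_eq_filter, sum_filter]
      exact sum_congr rfl fun i hi => by rw [(hm i hi).2]; split_ifs <;> rfl
    have e2 : ∑ i ∈ K, (if m i ∈ S then 0 else x i) ≤ ∑ i ∈ K \ S, x i + #{i ∈ S | m i ∉ S} := by
      rw [← sum_sdiff hS, card_filter]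
      push_cast
      refine add_le_add (sum_le_sum fun i _ => ?_) (sum_le_sum fun i _ => ?_)
      · split_ifs
        exacts [x0 i, le_rfl]
      · by_cases k : m i ∈ S <;> simp [k, x1 i]
    simp only [walk, cross, List.map_cons, List.sum_cons] at ih ⊢
    rw [← hx] at ih ⊢
    rw [← sum_div, sum_add_distrib, e1]
    push_cast at ih ⊢
    linarith

/-- Expansion of the union of the matchings. -/
theorem Mixed.expand (hx : Mixed K ms) (h : ∀ m ∈ ms, Inv K m) {S : Finset ℕ} (hS : S ⊆ K) :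
    #S * #(K \ S) ≤ #K * cross S ms := by
  rcases K.eq_empty_or_nonempty with rfl | hK
  · simp
  have k : (0 : ℝ) < #K := by exact_mod_cast card_pos.2 hK
  have h1 : ∀ i ∈ K \ S, (#S : ℝ) * (1 / (2 * #K)) ≤
      walk ms (fun j => if j ∈ S then 1 else 0) i := fun i hi => by
    rw [walk_eq h _ i (mem_sdiff.1 hi).1]
    simp only [ite_mul, one_mul, zero_mul]
    rw [← sum_filter, filter_mem_eq_inter, inter_eq_right.2 hS]
    simpa using card_nsmul_le_sum S _ _ fun j hj => hx.low (mem_sdiff.1 hi).1 (hS hj)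
  have h2 := card_nsmul_le_sum _ _ _ h1
  have h3 := out_le h hS
  rw [nsmul_eq_mul] at h2
  have h4 : (#S : ℝ) * #(K \ S) ≤ #K * cross S ms := by
    have e : (#S : ℝ) * #(K \ S) = #K * (2 * (#(K \ S) * (#S * (1 / (2 * #K))))) := by field_simp
    rw [e]
    exact mul_le_mul_of_nonneg_left (by linarith) k.le
  exact_mod_cast h4

end

end Vale.Agent.P305K
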